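import Mathlib
import Vale.Agent.Lib.P174.Main

namespace Vale.Agent.Results.P174.A_subgroups

open Vale.Agent.Lib.P174

universe u

theorem result {G : Type u} [Group G]
    (hG : ∀ L : Subgroup G, L.FG → (∀ f : L →* Multiplicative ℤ, f = 1) → HowieProperty L) :
    HowieProperty G :=
  howie_of_subgroups hG

end Vale.Agent.Results.P174.A_subgroups
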