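import Mathlib
import Vale.Agent.Lib.P174.Main

namespace Vale.Agent.Results.P174.B_extension

open Vale.Agent.Lib.P174

universe u

theorem result {G : Type u} [Group G] (N : Subgroup G) [N.Normal]
    (hN : HowieProperty N) (hQ : IsLocallyIndicable (G ⧸ N)) :
    HowieProperty G :=
  howie_of_extension N hN hQ

end Vale.Agent.Results.P174.B_extension
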