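import Mathlib
import Vale.Agent.Lib.P174.Main

namespace Vale.Agent.Results.P174.C_modp

open Vale.Agent.Lib.P174

universe u

theorem result (p : ℕ) [Fact p.Prime] {G : Type u} [Group G]
    (hG : ∀ L : Subgroup G, L.FG → (∀ f : L →* Multiplicative (ZMod p), f = 1) → HowieModP p L) :
    HowieModP p G :=
  howieModP_of_pGood hG

end Vale.Agent.Results.P174.C_modp
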